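import Vale.Agent.P295.QDefs
import Vale.Agent.P295.Defs

/-!
# P295: coordinates and stable coordinates (the definitions are in `Defs`)
-/
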